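import Vale.Agent.P281.H540.Core

/-! P281 (helper540): Campana's inequality for total spaces of general type. -/

namespace Vale.Agent.P281.H540

open scoped Manifold ContDiff Topology ENNReal
open Set Filter Metric Vale.Agent.P272.K
open Vale.Agent.P272.KOD (JetP)
open Vale.Agent.P281.H76

/-- rational boundaries are effective `ℚ`-divisors. -/
theorem isEffective_snc {E : Type} [NormedAddCommGroup E] [NormedSpace ℂ E] {X : Type}
    [TopologicalSpace X] [ChartedSpace E X] {Δ : Set X → ℝ} (h : J.IsSNC E Δ) :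
    IsEffective E (fun (D : Set X) (z : X) (g : X → ℂ) => J.IsLocalEq E D g z) Δ := by
  obtain ⟨hfin, hprime, hrat, -⟩ := h
  refine ⟨hfin, fun D => ?_, fun D hD => ⟨fun z => ?_, Dᶜ, ?_, ?_, fun z hz => ?_⟩⟩
  · obtain ⟨q, h1, h2, -⟩ := hrat D
    exact ⟨q, h1, h2⟩
  · obtain ⟨g, hg⟩ := (hprime D hD).2.1 z
    obtain ⟨W, hW, hz, h1, h2, h3⟩ := id hg
    exact ⟨g, hg, h1 z hz⟩
  · exact (hprime D hD).1.isOpen_compl
  · rw [dense_iff_inter_open]
    intro U hU hne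
    obtain ⟨x, hx, hxD⟩ := IsLocalEq.exists_notMem (E := E) (D := D)
      (fun x => (hprime D hD).2.1 x) hU hne
    exact ⟨x, hx, hxD⟩
  · obtain ⟨g, hg⟩ := (hprime D hD).2.1 z
    obtain ⟨W, hW, hz', h1, h2, h3⟩ := id hg
    exact ⟨g, hg, fun h0 => hz ((h2 z hz').2 h0)⟩

/-- a nonvanishing Jacobian determinant from a bijective differential. -/
theorem det_ne_of_bij {n : ℕ} {L : Cm n →L[ℂ] Cm n} (h : Function.Bijective L) : L.det ≠ 0 := by
  have h1 : LinearMap.ker (L : Cm n →ₗ[ℂ] Cm n) = ⊥ := LinearMap.ker_eq_bot.2 h.1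
  have h2 := LinearMap.isUnit_iff_ker_eq_bot (L : Cm n →ₗ[ℂ] Cm n) |>.2 h1
  exact (LinearMap.isUnit_det _ h2).ne_zero

theorem jkod_le {E : Type} [NormedAddCommGroup E] [NormedSpace ℂ E] [FiniteDimensional ℂ E]
    {Z : Type} [TopologicalSpace Z] [ChartedSpace E Z] {ι : Type}
    (eqn : ι → Z → (Z → ℂ) → Prop) (c : ι → ℝ) :
    J.kod E eqn c ≤ ((Module.finrank ℂ E : ℕ∞) : WithBot ℕ∞) := by
  rw [JB.kod_eq]
  exact kod_le eqn c

section
variable {n : ℕ} {X₀ : Type} [TopologicalSpace X₀] [ChartedSpace (Cm n) X₀]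
  [IsManifold 𝓘(ℂ, Cm n) ω X₀]

theorem kod_full (hjet : ∀ x : X₀, ∃ m, 1 ≤ m ∧ JetP n m x) {Z : Type} [TopologicalSpace Z]
    [ChartedSpace (Cm n) Z] [IsManifold 𝓘(ℂ, Cm n) ω Z] (q : Z → X₀)
    (hq : IsGenEtale (Cm n) q) : AllKodFull (Cm n) Z := by
  intro ι eqn c hc
  apply le_antisymm
  · exact jkod_le eqn c
  · obtain ⟨hq, z, hz⟩ := hq
    have h2 : KodGE (Cm n) eqn c n := kodGE_jet hjet (fun z => hq z) ⟨z, det_ne_of_bij hz⟩ hc
    rw [JB.kod_eq, Module.finrank_fin_fun]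
    exact le_iSup₂_of_le (f := fun (j : ℕ) (_ : KodGE (Cm n) eqn c j) =>
      ((j : ℕ∞) : WithBot ℕ∞)) n h2 le_rfl

theorem campana (hjet : ∀ x : X₀, ∃ m, 1 ≤ m ∧ JetP n m x) : AllCampana (Cm n) X₀ := by
  intro E' _ _ _ O q hq
  refine ⟨fun _ => ∅, fun _ => ⟨fun x => ⟨univ, isOpen_univ, mem_univ x, 1, fun _ _ => 1,
    fun _ z _ => contMDiffAt_const, fun z _ => by simp⟩, ?_⟩, ?_⟩
  · exact (Set.empty_ne_univ : (∅ : Set O.Y) ≠ univ)
  · intro y _ E₀ _ _ _ hd F _ _ _ i _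
    have h1 := kod_full hjet q hq (fun (D : Set O.X) (z : O.X) (g : O.X → ℂ) =>
      J.IsLocalEq (Cm n) D g z) O.Δ (isEffective_snc O.snc)
    unfold kodaira
    rw [h1]
    have h2 := jkod_le (E := E₀) (fun (D : Set O.X) (p : F) (g : F → ℂ) =>
      ∃ e, J.IsLocalEq (Cm n) D e (i p) ∧ ∀ᶠ q in 𝓝 p, g q = e (i q)) O.Δ
    have h3 : kodBase O ≤ ((Module.finrank ℂ E' : ℕ∞) : WithBot ℕ∞) := by
      have h4 : kodBase O ≤ kodaira E' (J.orbBase (Cm n) E' O.f O.Δ) :=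
        iInf₂_le O (Relation.EqvGen.refl O)
      exact h4.trans (jkod_le (E := E') _ _)
    refine (add_le_add h2 h3).trans ?_
    rw [← hd]
    push_cast
    exact le_rfl

end

end Vale.Agent.P281.H540
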