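import Vale.Agent.P281.J
import Vale.Agent.Results.P272.HermitianNonposHSC

/-! P281 (helper540): definitions for the statements about hyperbolic manifolds. -/

open scoped Manifold ContDiff Topology ENNReal ComplexOrder
open Set

namespace Vale.Agent.P281.H540

open Vale.Agent.P281.J Vale.Agent.P272.K
open Vale.Agent.Results.P272.HermitianNonposHSC (TopPositive)

/-- `∑ c(i) L_i` is an effective `ℚ`-divisor, `L_i` being the effective divisor with local
equations `eqn i`: finitely many nonzero coefficients, which are positive rational numbers, and,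
for these `i`, holomorphic local equations at every point, not vanishing on a dense open set. -/
def IsEffective (E : Type) [NormedAddCommGroup E] [NormedSpace ℂ E] {Z : Type}
    [TopologicalSpace Z] [ChartedSpace E Z] {ι : Type} (eqn : ι → Z → (Z → ℂ) → Prop)
    (c : ι → ℝ) : Prop :=
  {i | c i ≠ 0}.Finite ∧ (∀ i, ∃ q : ℚ, c i = q ∧ 0 ≤ q) ∧
    ∀ i, c i ≠ 0 → (∀ z, ∃ g, eqn i z g ∧ HolAt E g z) ∧
      ∃ V : Set Z, IsOpen V ∧ Dense V ∧ ∀ z ∈ V, ∃ g, eqn i z g ∧ g z ≠ 0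

/-- The map `q : Z → X₀` between manifolds modelled on `E` is holomorphic, and étale at some
point. -/
def IsGenEtale (E : Type) [NormedAddCommGroup E] [NormedSpace ℂ E] {Z X₀ : Type}
    [TopologicalSpace Z] [ChartedSpace E Z] [TopologicalSpace X₀] [ChartedSpace E X₀]
    (q : Z → X₀) : Prop :=
  ContMDiff 𝓘(ℂ, E) 𝓘(ℂ, E) ω q ∧ ∃ z, Function.Bijective (mfderiv 𝓘(ℂ, E) 𝓘(ℂ, E) q z)

/-- `κ(Z, K_Z + L) = dim Z` for every effective `ℚ`-divisor `L` on `Z`. -/
def AllKodFull (E : Type) [NormedAddCommGroup E] [NormedSpace ℂ E] (Z : Type)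
    [TopologicalSpace Z] [ChartedSpace E Z] : Prop :=
  ∀ {ι : Type} (eqn : ι → Z → (Z → ℂ) → Prop) (c : ι → ℝ), IsEffective E eqn c →
    kod E eqn c = ((Module.finrank ℂ E : ℕ∞) : WithBot ℕ∞)

section
variable (n : ℕ) (Z : Type) [TopologicalSpace Z] [ChartedSpace (Cm n) Z]

/-- `Z` is a complex manifold of dimension `n`. -/
def IsComplexMfd : Prop := IsManifold 𝓘(ℂ, Cm n) ω Z

/-- `Z` has a Kähler metric. -/
def HasKahler : Prop :=
  ∃ w : Chart n Z → Cm n → Matrix (Fin n) (Fin n) ℂ, IsKahler w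

/-- `Z` has a Hermitian metric of nonpositive holomorphic sectional curvature, and either the
curvature is negative at some point, or there is no flat line, or `c₁(K_Z)^n > 0`. -/
def HasNonposMetric : Prop :=
  ∃ h : Chart n Z → Cm n → Matrix (Fin n) (Fin n) ℂ, IsHermitian h ∧ NonposHSC h ∧
    (QuasiNegHSC h ∨ (∀ f : ℂ → Z, ¬ IsFlatLine h f) ∨ TopPositive n Z)

/-- `Z` is a compact connected Kähler manifold of dimension `n` which is Brody hyperbolic or has a
metric as above. -/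
structure IsNegative : Prop where
  holo : IsComplexMfd n Z
  t2 : T2Space Z
  compact : CompactSpace Z
  connected : ConnectedSpace Z
  kahler : HasKahler n Z
  negative : BrodyHyperbolic n Z ∨ HasNonposMetric n Z

end

section Campana

/-- `m_Δ(D) = 1 / (1 - Δ_D)` in `[1, ∞]`. -/
noncomputable def mult {X : Type} (Δ : Set X → ℝ) (D : Set X) : ℝ≥0∞ :=
  (1 - ENNReal.ofReal (Δ D))⁻¹

section
variable (E E' : Type) [NormedAddCommGroup E] [NormedSpace ℂ E]
  [NormedAddCommGroup E'] [NormedSpace ℂ E']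
variable {X Y : Type} [TopologicalSpace X] [ChartedSpace E X]
  [TopologicalSpace Y] [ChartedSpace E' Y]

/-- `ord_D (u^* G)`: near some point of `D`, `u^* g = e ^ k * unit`, where `e`, `g` are local
equations of `D`, `G`. -/
noncomputable def ordAlong (u : X → Y) (G : Set Y) (D : Set X) : ℕ :=
  sInf {k | ∃ x ∈ D, ∃ e g w, IsLocalEq E D e x ∧ IsLocalEq E' G g (u x) ∧ HolAt E w x ∧ w x ≠ 0 ∧
    ∀ᶠ z in 𝓝 x, g (u z) = e z ^ k * w z}

/-- Closed analytic subsets. -/
def IsAnalytic (A : Set X) : Prop :=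
  ∀ x, ∃ W : Set X, IsOpen W ∧ x ∈ W ∧ ∃ (n : ℕ) (g : Fin n → X → ℂ),
    (∀ i, ∀ z ∈ W, HolAt E (g i) z) ∧ ∀ z ∈ W, z ∈ A ↔ ∀ i, g i z = 0

/-- Proper bimeromorphic morphisms: proper surjective holomorphic maps which are isomorphisms over
the complement of a proper analytic subset. -/
structure IsModification (u : X → Y) : Prop where
  hol : ContMDiff 𝓘(ℂ, E) 𝓘(ℂ, E') ω u
  proper : IsProperMap u
  surj : Function.Surjective u
  iso : ∃ A : Set Y, IsAnalytic E' A ∧ A ≠ univ ∧ ∃ v : Y → X,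
    ContMDiffOn 𝓘(ℂ, E') 𝓘(ℂ, E) ω v Aᶜ ∧ (∀ y ∉ A, u (v y) = y) ∧ ∀ x, u x ∉ A → v (u x) = x

end

section
variable (E E' : Type) [NormedAddCommGroup E] [NormedSpace ℂ E]
  [NormedAddCommGroup E'] [NormedSpace ℂ E']

/-- A fibration `f : X → Y` between compact connected complex manifolds (modelled on `E`, `E'`)
together with a rational SNC boundary on `X`. -/
structure OrbFib where
  X : Type
  Y : Type
  [topX : TopologicalSpace X]
  [topY : TopologicalSpace Y]
  [chX : ChartedSpace E X]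
  [chY : ChartedSpace E' Y]
  [manX : IsManifold 𝓘(ℂ, E) ω X]
  [manY : IsManifold 𝓘(ℂ, E') ω Y]
  [t2X : T2Space X]
  [t2Y : T2Space Y]
  [cptX : CompactSpace X]
  [cptY : CompactSpace Y]
  [conX : ConnectedSpace X]
  [conY : ConnectedSpace Y]
  f : X → Y
  hol : ContMDiff 𝓘(ℂ, E) 𝓘(ℂ, E') ω f
  surj : Function.Surjective f
  fib : ∀ y, IsConnected (f ⁻¹' {y})
  Δ : Set X → ℝ
  snc : IsSNC E Δ

attribute [instance] OrbFib.topX OrbFib.topY OrbFib.chX OrbFib.chY OrbFib.manX OrbFib.manY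
  OrbFib.t2X OrbFib.t2Y OrbFib.cptX OrbFib.cptY OrbFib.conX OrbFib.conY

variable {E E'}

/-- `O'` lies over `O`: a commutative square `f ∘ u = v ∘ f'` with `u`, `v` proper bimeromorphic,
`u_* Δ' = Δ` and `ord_{D'}(u^* D) m_{Δ'}(D') ≥ m_Δ(D)` whenever `ord_{D'}(u^* D) > 0`. -/
def Over (O' O : OrbFib E E') : Prop :=
  ∃ (u : O'.X → O.X) (v : O'.Y → O.Y), IsModification E E u ∧ IsModification E' E' v ∧
    (∀ x, O.f (u x) = v (O'.f x)) ∧
    (∀ D', IsPrime E D' → IsPrime E (u '' D') → O'.Δ D' = O.Δ (u '' D')) ∧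
    ∀ D D', IsPrime E D → IsPrime E D' → 0 < ordAlong E E u D D' →
      mult O.Δ D ≤ (ordAlong E E u D D' : ℝ≥0∞) * mult O'.Δ D'

/-- `κ(Z, K_Z + B)` for `B = ∑ B(D) D`, sum over prime divisors. -/
noncomputable def kodaira (E : Type) [NormedAddCommGroup E] [NormedSpace ℂ E] {Z : Type}
    [TopologicalSpace Z] [ChartedSpace E Z] (B : Set Z → ℝ) : WithBot ℕ∞ :=
  kod E (fun (D : Set Z) (z : Z) (g : Z → ℂ) => IsLocalEq E D g z) B

/-- Campana's orbifold base dimension `κ(f | Δ)`. -/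
noncomputable def kodBase (O : OrbFib E E') : WithBot ℕ∞ :=
  ⨅ (O' : OrbFib E E') (_ : Relation.EqvGen Over O O'), kodaira E' (orbBase E E' O'.f O'.Δ)

/-- `i : F → X` identifies the complex manifold `F` with the fibre of `f` over `y`. -/
structure IsFibre (O : OrbFib E E') (y : O.Y) (E₀ : Type) [NormedAddCommGroup E₀]
    [NormedSpace ℂ E₀] {F : Type} [TopologicalSpace F] [ChartedSpace E₀ F] (i : F → O.X) :
    Prop where
  hol : ContMDiff 𝓘(ℂ, E₀) 𝓘(ℂ, E) ω i
  emb : Topology.IsEmbedding i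
  imm : ∀ p, Function.Injective (mfderiv 𝓘(ℂ, E₀) 𝓘(ℂ, E) i p)
  range_eq : range i = O.f ⁻¹' {y}

/-- Campana's inequality `κ(X, K_X + Δ) ≥ κ(F, K_F + Δ|_F) + κ(f | Δ)` for the very general
fibre `F` (all fibres over points outside countably many proper analytic subsets). -/
def CampanaInequality (O : OrbFib E E') : Prop :=
  ∃ A : ℕ → Set O.Y, (∀ n, IsAnalytic E' (A n) ∧ A n ≠ univ) ∧ ∀ y, (∀ n, y ∉ A n) →
    ∀ (E₀ : Type) [NormedAddCommGroup E₀] [NormedSpace ℂ E₀] [FiniteDimensional ℂ E₀],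
    Module.finrank ℂ E₀ + Module.finrank ℂ E' = Module.finrank ℂ E →
    ∀ (F : Type) [TopologicalSpace F] [ChartedSpace E₀ F] [IsManifold 𝓘(ℂ, E₀) ω F] (i : F → O.X),
    IsFibre O y E₀ i →
    kod E₀ (fun (D : Set O.X) (p : F) (g : F → ℂ) =>
      ∃ e, IsLocalEq E D e (i p) ∧ ∀ᶠ q in 𝓝 p, g q = e (i q)) O.Δ + kodBase O
    ≤ kodaira E O.Δ

end

/-- Campana's inequality holds for all fibrations `f : X → Y`, with rational SNC boundary on `X`,
such that `X` has a generically étale map to `Z`. -/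
def AllCampana (E : Type) [NormedAddCommGroup E] [NormedSpace ℂ E] (Z : Type)
    [TopologicalSpace Z] [ChartedSpace E Z] : Prop :=
  ∀ (E' : Type) [NormedAddCommGroup E'] [NormedSpace ℂ E'] [FiniteDimensional ℂ E']
    (O : OrbFib E E') (q : O.X → Z), IsGenEtale E q → CampanaInequality O

end Campana

end Vale.Agent.P281.H540
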