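import Vale.Agent.P281.H76.KodPull
import Vale.Agent.P272.KOD.Soft3
import Vale.Agent.P281.H540.Defs

/-! P281 (helper540): big canonical bundles and Campana's inequality, generically étale maps to
manifolds with jet-separating pluricanonical forms. -/

namespace Vale.Agent.P281.H540

open scoped Manifold ContDiff Topology ENNReal
open Set Filter Metric Vale.Agent.P272.K
open Vale.Agent.P272.KOD (PSec JetP Jet ratio cht at_cht val_eq val_ne_iff dz_of_diff
  trans_contDiffAt trans_apply ratio_analyticAt ratio_change at_nhds)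
open Vale.Agent.P281.H76

universe u

/-- common denominator. -/
theorem exists_den {ι : Type u} {c : ι → ℝ} (hf : {i | c i ≠ 0}.Finite)
    (hq : ∀ i, ∃ q : ℚ, c i = q ∧ 0 ≤ q) :
    ∃ m : ℕ, 0 < m ∧ ∃ K : ι → ℕ, ∀ i, (K i : ℝ) = m * c i := by
  classical
  choose q hq h0 using hq
  set S := hf.toFinset with hS
  set m := ∏ D ∈ S, (q D).den with hm
  have hmpos : 0 < m := Finset.prod_pos fun D _ => (q D).pos
  have hK : ∀ D, ∃ k : ℕ, (k : ℝ) = m * c D := by
    intro D
    by_cases hD : c D = 0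
    · exact ⟨0, by rw [hD]; simp⟩
    · have hDS : D ∈ S := by rw [hS, Set.Finite.mem_toFinset]; exact hD
      obtain ⟨t, ht⟩ := Finset.dvd_prod_of_mem (fun D => (q D).den) hDS
      have hnum : 0 ≤ (q D).num := Rat.num_nonneg.2 (h0 D)
      refine ⟨t * (q D).num.toNat, ?_⟩
      have h2 : (((q D).num.toNat : ℕ) : ℝ) = ((q D).num : ℝ) := by
        have : (((q D).num.toNat : ℤ)) = (q D).num := Int.toNat_of_nonneg hnum
        exact_mod_cast this
      have h3 : ((q D : ℚ) : ℝ) * ((q D).den : ℝ) = ((q D).num : ℝ) := by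
        exact_mod_cast Rat.mul_den_eq_num (q D)
      push_cast
      rw [h2, hq D, ← h3]
      have h4 : (m : ℝ) = ((q D).den : ℝ) * t := by exact_mod_cast ht
      rw [h4]
      ring
  choose K hK using hK
  exact ⟨m, hmpos, K, hK⟩

section Upper

variable {E : Type} [NormedAddCommGroup E] [NormedSpace ℂ E] [FiniteDimensional ℂ E]
variable {Z : Type u} [TopologicalSpace Z] [ChartedSpace E Z]

/-- `κ ≤ dim`. -/
theorem le_of_kodGE {ι : Type u} {eqn : ι → Z → (Z → ℂ) → Prop} {c : ι → ℝ} {j : ℕ}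
    (h : KodGE E eqn c j) : j ≤ Module.finrank ℂ E := by
  obtain ⟨m, k, s, z, -, -, -, -, -, hli⟩ := h
  have h1 := hli.map' (ContinuousLinearMap.coeLM ℂ : (E →L[ℂ] ℂ) →ₗ[ℂ] (E →ₗ[ℂ] ℂ))
    (LinearMap.ker_eq_bot.2 ContinuousLinearMap.coe_injective)
  have h2 := h1.fintype_card_le_finrank
  rw [Fintype.card_fin] at h2
  exact h2.trans (by rw [show Module.finrank ℂ (E →ₗ[ℂ] ℂ) = Module.finrank ℂ E from
    Subspace.dual_finrank_eq])

theorem kod_le {ι : Type u} (eqn : ι → Z → (Z → ℂ) → Prop) (c : ι → ℝ) :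
    kod E eqn c ≤ ((Module.finrank ℂ E : ℕ∞) : WithBot ℕ∞) := by
  unfold kod
  refine iSup₂_le fun j hj => ?_
  exact_mod_cast le_of_kodGE hj

end Upper

section Pull

variable {n : ℕ} {X X' : Type} [TopologicalSpace X] [ChartedSpace (Cm n) X]
  [IsManifold 𝓘(ℂ, Cm n) ω X] [TopologicalSpace X'] [ChartedSpace (Cm n) X']
  [IsManifold 𝓘(ℂ, Cm n) ω X']

omit [TopologicalSpace X'] [ChartedSpace (Cm n) X'] [IsManifold 𝓘(ℂ, Cm n) ω X'] in
theorem dV_pref {V : Type*} [NormedAddCommGroup V] [NormedSpace ℂ V] {h : X → V} {x : X}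
    (hh : HolV (Cm n) h x) :
    dV (Cm n) h x = fderiv ℂ (h ∘ (cht n x).symm) (cht n x x) := by
  have h1 := hh.mdiff.mfderiv
  refine h1.trans ?_
  simp only [writtenInExtChartAt, extChartAt, mfld_simps]
  rw [chartAt_self_eq, fderivWithin_univ]
  rfl

omit [TopologicalSpace X'] [ChartedSpace (Cm n) X'] [IsManifold 𝓘(ℂ, Cm n) ω X'] in
/-- The Jacobian determinant of a change of charts. -/
theorem jacM_det {x₀ x : X} (h : At (cht n x₀) x) :
    (jacM (cht n x) (cht n x₀) x).det = jac (Cm n) (cht n x₀ : X → Cm n) x := by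
  have hd := (trans_contDiffAt (at_cht x) h).differentiableAt (by simp)
  have h1 : jac (Cm n) (cht n x₀ : X → Cm n) x =
      (dV (Cm n) (cht n x₀ : X → Cm n) x).det := rfl
  rw [h1, dV_pref (HolV.chart h.2)]
  set L := fderiv ℂ ((cht n x₀ : X → Cm n) ∘ (cht n x).symm) (cht n x x) with hL
  have h2 : jacM (cht n x) (cht n x₀) x = LinearMap.toMatrix' (L : Cm n →ₗ[ℂ] Cm n) := by
    ext p i
    rw [LinearMap.toMatrix'_apply]
    change dz i (fun z => (cht n x₀) ((cht n x).symm z) p) (cht n x x) = _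
    have h3 : HasFDerivAt (fun z => (cht n x₀) ((cht n x).symm z) p)
        ((ContinuousLinearMap.proj p).comp L) (cht n x x) :=
      (hasFDerivAt_pi'.1 hd.hasFDerivAt) p
    rw [dz_of_diff h3.differentiableAt, h3.fderiv]
    simp only [ContinuousLinearMap.comp_apply, ContinuousLinearMap.proj_apply]
    congr 2
  rw [h2, LinearMap.det_toMatrix']

omit [TopologicalSpace X'] [ChartedSpace (Cm n) X'] [IsManifold 𝓘(ℂ, Cm n) ω X'] in
theorem sec_val {M : ℕ} (s : PSec n M X) (x₀ : X) :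
    ∀ᶠ x in 𝓝 x₀, s.val x = s.coeff (cht n x₀) (cht n x₀ x) *
      jac (Cm n) (chartAt (Cm n) x₀ : X → Cm n) x ^ M := by
  filter_upwards [at_nhds (at_cht (n := n) x₀)] with x hx
  rw [val_eq s hx, jacM_det hx]

/-- pull-back of pluricanonical forms, multiplied with the local equations. -/
theorem isSection_pull {q : X' → X} (hq : ∀ z, HolM (Cm n) (Cm n) q z) {M : ℕ}
    (s : PSec n M X) {ι : Type} {eqn : ι → X' → (X' → ℂ) → Prop} {k : ι → ℕ} (T : Finset ι)
    (hT : ∀ i, k i ≠ 0 → i ∈ T) (hg : ∀ i ∈ T, ∀ z, ∃ g, eqn i z g ∧ HolV (Cm n) g z) :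
    IsSection (Cm n) eqn M k (fun z => s.val (q z) * (dM (Cm n) (Cm n) q z).det ^ M) := by
  classical
  intro z₀
  have hg' : ∀ i, ∃ g : X' → ℂ, i ∈ T → eqn i z₀ g ∧ HolV (Cm n) g z₀ := by
    intro i
    by_cases hi : i ∈ T
    · obtain ⟨g, hg⟩ := hg i hi z₀
      exact ⟨g, fun _ => hg⟩
    · exact ⟨fun _ => 0, fun h => absurd h hi⟩
  choose g hg' using hg'
  have h1 : HolV (Cm n) (fun w => chartAt (Cm n) (q z₀) (q w)) z₀ :=
    HolV.comp (h := (chartAt (Cm n) (q z₀) : X → Cm n))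
      (HolV.chart (mem_chart_source (Cm n) (q z₀))) (hq z₀)
  obtain ⟨R, hR, hRe⟩ := jac_local h1
  have hs : HolV (Cm n) (fun z => s.coeff (cht n (q z₀)) (cht n (q z₀) (q z))) z₀ :=
    HolV.comp_contDiff (G := s.coeff (cht n (q z₀)))
      (s.holo _ _ (at_cht (q z₀))).contDiffAt h1
  refine ⟨T, g, fun z => (s.coeff (cht n (q z₀)) (cht n (q z₀) (q z)) * R z ^ M) *
    ∏ i ∈ T, g i z ^ k i, hT, fun i hi => (hg' i hi).1, ?_, ?_⟩
  · have h2 : HolV (Cm n) (fun z => R z ^ M) z₀ :=
      HolV.comp_contDiff (G := fun t : ℂ => t ^ M) (contDiff_id.pow M).contDiffAt hR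
    have h3 : ∀ T' : Finset ι, T' ⊆ T → HolV (Cm n) (fun z => ∏ i ∈ T', g i z ^ k i) z₀ := by
      intro T'
      induction T' using Finset.induction_on with
      | empty => intro _; simpa using HolV.const (1 : ℂ) z₀
      | insert a s' ha ih =>
        intro hsub
        have h4 : HolV (Cm n) (fun z => g a z ^ k a) z₀ :=
          HolV.comp_contDiff (G := fun t : ℂ => t ^ k a) (contDiff_id.pow (k a)).contDiffAt
            (hg' a (hsub (Finset.mem_insert_self a s'))).2
        have h5 := h4.mul (ih ((Finset.subset_insert a s').trans hsub))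
        simpa [Finset.prod_insert ha] using h5
    exact (hs.mul h2).mul (h3 T (Finset.Subset.refl T))
  · filter_upwards [hRe, jac_comp (hq z₀),
      (hq z₀).continuousAt.eventually (sec_val s (q z₀))] with z e1 e2 e3 _
    have e4 : jac (Cm n) (chartAt (Cm n) (q z₀) : X → Cm n) (q z) *
        (dM (Cm n) (Cm n) q z).det = R z * jac (Cm n) (chartAt (Cm n) z₀ : X' → Cm n) z := by
      rw [← e2, e1]
    have e5 := congrArg (fun t : ℂ => t ^ M) e4
    simp only [mul_pow] at e5
    rw [e3]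
    linear_combination (s.coeff (cht n (q z₀)) (cht n (q z₀) (q z)) * ∏ i ∈ T, g i z ^ k i) * e5

/-- **Main lemma**: if `q : X' → X` is holomorphic and étale somewhere and every point of `X` has
`m`-canonical forms separating the 1-jets there, then `κ(X', K_{X'} + L) = n` for every effective
`ℚ`-divisor `L`. -/
theorem kodGE_jet (hjet : ∀ x : X, ∃ m, 1 ≤ m ∧ JetP n m x) {q : X' → X}
    (hq : ∀ z, HolM (Cm n) (Cm n) q z) (hne : ∃ z, (dM (Cm n) (Cm n) q z).det ≠ 0)
    {ι : Type} {eqn : ι → X' → (X' → ℂ) → Prop} {c : ι → ℝ} (hc : IsEffective (Cm n) eqn c) :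
    KodGE (Cm n) eqn c n := by
  classical
  obtain ⟨hfin, hrat, hloc⟩ := hc
  -- a good point
  have hV : ∀ i, ∃ V : Set X', IsOpen V ∧ Dense V ∧ (c i ≠ 0 → ∀ z ∈ V, ∃ g, eqn i z g ∧ g z ≠ 0) := by
    intro i
    by_cases hi : c i = 0
    · exact ⟨univ, isOpen_univ, dense_univ, fun h => absurd hi h⟩
    · obtain ⟨V, h1, h2, h3⟩ := (hloc i hi).2
      exact ⟨V, h1, h2, fun _ => h3⟩
  choose V hVo hVd hVe using hV
  have hdense : Dense (⋂ i ∈ hfin.toFinset, V i) ∧ IsOpen (⋂ i ∈ hfin.toFinset, V i) := by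
    refine ⟨?_, isOpen_biInter_finset fun i _ => hVo i⟩
    refine Finset.induction_on hfin.toFinset (by simp) ?_
    intro a s' ha ih
    have : (⋂ i ∈ insert a s', V i) = V a ∩ ⋂ i ∈ s', V i := by simp
    rw [this]
    exact (hVd a).inter_of_isOpen_left ih (hVo a)
  obtain ⟨z', hz1, hz2⟩ := hdense.1.inter_open_nonempty _ (isOpen_det hq) hne
  obtain ⟨m, hm, hJ⟩ := hjet (q z')
  obtain ⟨m₁, hm₁, K, hK⟩ := exists_den hfin hrat
  obtain ⟨M, hM⟩ : ∃ M, M = m * m₁ := ⟨_, rfl⟩
  have hJ' : JetP n M (q z') := by rw [hM]; exact hJ.pow hm₁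
  obtain ⟨s0, s, hs⟩ := hJ'
  set T := hfin.toFinset with hT
  have hKT : ∀ i, K i * m ≠ 0 → i ∈ T := by
    intro i hi
    rw [hT, Set.Finite.mem_toFinset]
    intro h0
    have := hK i
    rw [h0, mul_zero] at this
    exact hi (by rw [Nat.cast_eq_zero.1 this, zero_mul])
  have hTc : ∀ i ∈ T, c i ≠ 0 := fun i hi => by
    rw [hT, Set.Finite.mem_toFinset] at hi; exact hi
  set S : Fin (n + 1) → PSec n M X := Fin.cons s0 s with hS
  refine ⟨M, fun i => K i * m, fun b z => (S b).val (q z) * (dM (Cm n) (Cm n) q z).det ^ M, z',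
    hM ▸ Nat.mul_pos hm hm₁, fun i => ?_, fun b => ?_, fun i hi => ?_, ?_, ?_⟩
  · rw [hM]; push_cast; rw [hK]; ring
  · exact isSection_pull hq (S b) T hKT fun i hi z => (hloc i (hTc i hi)).1 z
  · have hiT := hKT i hi
    exact hVe i (hTc i hiT) z' (by simpa using Set.mem_iInter₂.1 hz2 i hiT)
  · refine mul_ne_zero ?_ (pow_ne_zero _ hz1)
    exact (val_ne_iff s0 (at_cht (q z'))).2 hs.1
  · -- independence
    have h0 : s0.coeff (cht n (q z')) (cht n (q z') (q z')) ≠ 0 := hs.1
    set e := cht n (q z') with he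
    have hev : ∀ᶠ w in 𝓝 z', (dM (Cm n) (Cm n) q w).det ≠ 0 ∧ At e (q w) ∧ s0.val (q w) ≠ 0 := by
      have a1 := (isOpen_det hq).mem_nhds hz1
      have a2 := (hq z').continuousAt.eventually (at_nhds (at_cht (n := n) (q z')))
      have a3 : ∀ᶠ x in 𝓝 (q z'), s0.val x ≠ 0 := by
        have b1 := ((s0.holo e _ (at_cht (q z'))).continuousAt.eventually_ne h0)
        have b2 := (e.continuousAt (mem_chart_source (Cm n) (q z'))).eventually b1
        filter_upwards [b2, at_nhds (at_cht (n := n) (q z'))] with x hx1 hx2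
        exact (val_ne_iff s0 hx2).2 hx1
      filter_upwards [a1, a2, (hq z').continuousAt.eventually a3] with w h1 h2 h3
      exact ⟨h1, h2, h3⟩
    have hratio : ∀ b : Fin n, (fun w => (S b.succ).val (q w) * (dM (Cm n) (Cm n) q w).det ^ M /
        ((S 0).val (q w) * (dM (Cm n) (Cm n) q w).det ^ M)) =ᶠ[𝓝 z']
        fun w => ratio s0 s e (e (q w)) b := by
      intro b
      filter_upwards [hev] with w hw
      have h4 : (dM (Cm n) (Cm n) q w).det ^ M ≠ 0 := pow_ne_zero _ hw.1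
      rw [mul_div_mul_right _ _ h4]
      change (s b).val (q w) / s0.val (q w) = (s b).coeff e (e (q w)) / s0.coeff e (e (q w))
      have hne := hw.2.2
      rw [val_eq s0 hw.2.1] at hne ⊢
      rw [val_eq (s b) hw.2.1, mul_div_mul_right _ _ (right_ne_zero_of_mul hne)]
    -- the map `Φ = ratio ∘ e ∘ q`
    have hanal : ContDiffAt ℂ ω (ratio s0 s e) (e (q z')) :=
      (ratio_analyticAt (s := s) (at_cht (q z')) h0).contDiffAt
    have h1 : HolV (Cm n) (fun w => e (q w)) z' :=
      HolV.comp (h := (e : X → Cm n)) (HolV.chart (mem_chart_source (Cm n) (q z'))) (hq z')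
    have hΦ : HolV (Cm n) (fun w => ratio s0 s e (e (q w))) z' :=
      HolV.comp_contDiff hanal h1
    have hdΦ : dV (Cm n) (fun w => ratio s0 s e (e (q w))) z' =
        (fderiv ℂ (ratio s0 s e) (e (q z'))).comp (dV (Cm n) (fun w => e (q w)) z') :=
      dV_comp_contDiff hanal h1
    have hd1 : dV (Cm n) (fun w => e (q w)) z' =
        (dV (Cm n) (e : X → Cm n) (q z')).comp (dM (Cm n) (Cm n) q z') :=
      dV_comp (h := (e : X → Cm n)) (HolV.chart (mem_chart_source (Cm n) (q z'))) (hq z')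
    -- injectivity of dΦ
    have hinj : Function.Injective (dV (Cm n) (fun w => ratio s0 s e (e (q w))) z') := by
      rw [hdΦ, hd1]
      have i1 : Function.Injective (dM (Cm n) (Cm n) q z') :=
        (LinearMap.equivOfDetNeZero
          ((dM (Cm n) (Cm n) q z' : Cm n →L[ℂ] Cm n) : Cm n →ₗ[ℂ] Cm n) hz1).injective
      have i2 : Function.Injective (dV (Cm n) (e : X → Cm n) (q z')) := by
        obtain ⟨A, hA⟩ := dV_chart_leftInv (E := Cm n) (mem_chart_source (Cm n) (q z'))
        intro v w hvw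
        have h5 := congrArg (fun t => A t) hvw
        have h6 : ∀ v, A (dV (Cm n) (e : X → Cm n) (q z') v) = v := fun v => by
          have := congrArg (fun L : Cm n →L[ℂ] Cm n => L v) hA
          simpa using this
        simpa [h6] using h5
      exact hs.2.comp (i2.comp i1)
    have hsurj : Function.Surjective (dV (Cm n) (fun w => ratio s0 s e (e (q w))) z') :=
      (LinearMap.injective_iff_surjective (f := ((dV (Cm n) (fun w => ratio s0 s e (e (q w))) z' :
        Cm n →L[ℂ] (Fin n → ℂ)) : Cm n →ₗ[ℂ] (Fin n → ℂ)))).1 hinj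
    have hd : ∀ b : Fin n, dif (Cm n) (fun w => (S b.succ).val (q w) *
        (dM (Cm n) (Cm n) q w).det ^ M / ((S 0).val (q w) * (dM (Cm n) (Cm n) q w).det ^ M)) z' =
        dV (Cm n) (fun w => ratio s0 s e (e (q w)) b) z' := by
      intro b
      unfold dV dif
      rw [(hratio b).mfderiv_eq]
    rw [linearIndependent_iff']
    intro F a ha b hb
    obtain ⟨ξ, hξ⟩ := hsurj (Pi.single b 1)
    have h7 := congrArg (fun L : Cm n →L[ℂ] ℂ => L ξ) ha
    simp only [sum_apply, smul_apply, smul_eq_mul, zero_apply] at h7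
    have h8 : ∀ i, dif (Cm n) (fun w => (S i.succ).val (q w) *
        (dM (Cm n) (Cm n) q w).det ^ M / ((S 0).val (q w) * (dM (Cm n) (Cm n) q w).det ^ M)) z' ξ =
        (Pi.single b (1 : ℂ) : Fin n → ℂ) i := by
      intro i
      rw [hd i, ← dV_apply hΦ i ξ, hξ]
    rw [Finset.sum_congr rfl fun i _ => by rw [h8 i]] at h7
    simpa [Pi.single_apply, hb] using h7

end Pull

end Vale.Agent.P281.H540
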