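import Vale.Agent.P281.H540.Camp
import Vale.Agent.P272.TOP.Q1
import Vale.Agent.P272.KOD.Main

/-! P281 (helper540): the `1`-jets of pluricanonical forms on hyperbolic manifolds. -/

open scoped Manifold ContDiff ComplexOrder

namespace Vale.Agent.P281.H540

open Vale.Agent.P272.K

theorem jets (n : ℕ) (hn : 1 ≤ n) (X₀ : Type) [TopologicalSpace X₀] [ChartedSpace (Cm n) X₀]
    (h : IsNegative n X₀) : ∀ x : X₀, ∃ m, 1 ≤ m ∧ Vale.Agent.P272.KOD.JetP n m x := by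
  have : IsManifold 𝓘(ℂ, Cm n) ω X₀ := h.holo
  have := h.t2
  have := h.compact
  have := h.connected
  obtain ⟨w, hw⟩ := h.kahler
  have hpos : ∃ φ : Chart n X₀ → Cm n → ℝ, IsCanonicalMetric φ ∧
      ∀ e x, At e x → (cHess (φ e) (e x)).PosDef := by
    rcases h.negative with hX₀ | ⟨h, hh, hneg, hcase⟩
    · exact Vale.Agent.P272.TOP.xam n hn X₀ hX₀ w hw
    · obtain ⟨-, h2, h3, h4, -⟩ :=
        Vale.Agent.Results.P272.HermitianNonposHSC.result n hn X₀ w h hw hh hneg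
      rcases hcase with hc | hc | hc
      · exact h3 hc
      · exact h4 hc
      · exact h2.2 hc
  obtain ⟨φ, hφ, hp⟩ := hpos
  intro x
  obtain ⟨m, hm, hj⟩ := (Vale.Agent.P272.KOD.peakStmt n X₀ φ hφ hp
    (Vale.Agent.P272.KOD.keyStmt n X₀ φ hφ hp)).1 x
  exact ⟨m, hm, Vale.Agent.P272.KOD.jetP_of_jetAt hj⟩

end Vale.Agent.P281.H540
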